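import Vale.Agent.P283R.All
import Vale.Agent.P283R.Br.Idn

/-!
# P283: bounded klt complements over quotients of smooth varieties, arbitrary boundary
-/

open CategoryTheory AlgebraicGeometry

namespace Vale.Agent.Results.P283.AQuotients

open Vale.Agent.P289 Vale.Agent.P283M.Stm Vale.Agent.P283M.Stm.Var Vale.Agent.P283R

theorem result :
    ∀ d : ℕ, 1 ≤ d → ∀ ε : ℝ, 0 < ε → ∀ R : Finset ℚ, (∀ r ∈ R, 0 ≤ r ∧ r ≤ 1) →
    ∃ n : ℕ, 1 ≤ n ∧ ∀ (X : Var) (ω : DForm ℂ X.K d) (B : X.QDiv),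
      dimension X.str = d → ω.Nonzero → Pair (ε ≤ ·) ⊤ ω B → (∀ y, B y ≠ 0 → B y ∈ R) →
      (∀ z : Pt X.X, IsClosed ({z} : Set (Pt X.X)) → Stm.Lciq 0 X z →
        HasKltComplement (𝟙 X.X) ω B n z) ∧
      ∀ (Z : Var) (f : X.X ⟶ Z.X) (z : Pt Z.X), Contraction f → Stm.Birational f →
        (∃ m g, 0 < m ∧ ∀ x : Pt X.X, x.map f = z → LocalEq (logCan ω B) m g x) →
        IsClosed ({z} : Set (Pt Z.X)) → Stm.Lciq 0 Z z → HasKltComplement f ω B n z := by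
  intro d hd ε hε R hR
  obtain ⟨n, n1, h⟩ := Fin.q0 d hd ε hε R hR
  exact ⟨n, n1, fun X ω B a b c e =>
    ⟨fun z u v => h X X _ ω B z 0 a b c e Br.ctr_id Br.bir_id (Br.loc_id c z) u rfl v,
      fun Z f z s t u v w => h X Z f ω B z 0 a b c e s t u v rfl w⟩⟩

end Vale.Agent.Results.P283.AQuotients
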